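import Crest.Agent.X212.Rad94.Leaf
import Crest.Agent.X212.Qab60.Reg
import Crest.Agent.X212.Rinv39.Rd

/-! Row 212, RAD-CLO+COK (helper39): cut-offs on the ends, forms and their components. -/

set_option autoImplicit false
set_option linter.unusedSectionVars false
noncomputable section
open scoped Manifold ContDiff Topology InnerProductSpace
open MeasureTheory Set Function Filter Real
open Crest.Agent.R208.F (Ext)

namespace Crest.Agent.X212.Clo39
open An Sob92 Rad94 Ulc97 Map77 Int54 Sw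
open Num57 hiding st c1 c2 g1 c1_add c2_add
open Qab60 hiding Fo
open Dr59 (dM df)
open M (Mf)

section gm
variable {κ lam A : Type} [Fintype κ] [Fintype lam] [Fintype A] {X : Mf 4} {g : Gm X κ lam A}
  {T C : ℝ} {x : X.M} {θ : X.M → ℝ}

variable (g) in
/-- the shell -/
abbrev sh (T : ℝ) : Set X.M := g.cor (T + 2) \ g.cor T

variable (g) in
/-- cut-offs -/
structure Ct (θ : X.M → ℝ) (T C : ℝ) : Prop where
  sm : Sm X.I θ
  one : ∀ x ∈ g.cor T, θ =ᶠ[𝓝 x] 1
  zero : ∀ x ∉ g.cor (T + 2), θ x = 0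
  le : ∀ x, |θ x| ≤ 1
  d : ∀ x, ‖c1 g.F (df X.I θ) x‖ ≤ C

theorem norm_le_sum {α : Type} [Fintype α] (v : Fm α ℝ) : ‖v‖ ≤ ∑ a, |v a| := by
  refine abs_le_of_sq_le_sq' ?_ (by positivity) |>.2
  rw [PiLp.norm_sq_eq_of_L2]
  exact Finset.sum_sq_le_sq_sum_of_nonneg fun _ _ => abs_nonneg _

theorem exists_ct (hg : g.OK) : ∃ C ≥ 0, ∀ T ≥ 0, ∃ θ, Ct g θ T C := by
  obtain ⟨B, hB⟩ := Nd18.bd_st
  refine ⟨Fintype.card (Option κ) * (Fintype.card A * |B 1|), by positivity, fun T hT => ?_⟩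
  let c : A → ℝ → ℝ := fun _ τ => χ (τ + -(T + 1))
  have h0 : ∀ s, ∀ τ ≤ T + 1, c s τ = 0 := fun s τ h => smoothTransition.zero_of_nonpos (by linarith)
  have hc : Rd c := fun s => ⟨(hB.shift _).1, fun τ h => h0 s τ (by linarith)⟩
  have hb := CBs_rd (g := g) hc fun _ => hB.shift _
  have e : ∀ {s x}, -1 < g.ht s x → g.rd c x = c s (g.ht s x) := fun hx =>
    rd_eq hg (fun s t h => h0 s t (by linarith)) hx
  refine ⟨fun x => 1 - g.rd c x, contMDiff_const.sub hb.1, fun x hx => ?_, fun x hx => ?_,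
    fun x => ?_, fun x => (norm_le_sum _).trans ?_⟩
  · filter_upwards [eventually_all.2 fun s => (cont_ht g s).continuousAt.eventually_lt
      continuousAt_const ((hx s).trans_lt (lt_add_one T))] with y hy
    simp [Gm.rd, fun s => h0 s _ (hy s).le]
  · obtain ⟨s, hs⟩ := not_forall.1 hx
    rw [e (by linarith [not_le.1 hs]), sub_eq_zero]
    exact (smoothTransition.one_of_one_le (by linarith [not_le.1 hs])).symm
  · by_cases h : ∃ s, -1 < g.ht s x
    · obtain ⟨s, hs⟩ := h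
      rw [e hs, abs_le]
      constructor <;> linarith [smoothTransition.nonneg (g.ht s x + -(T + 1)),
        smoothTransition.le_one (g.ht s x + -(T + 1))]
    · rw [rd_cor hc fun s => by linarith [not_lt.1 (not_exists.1 h s)]]; simp
  · rw [← nsmul_eq_mul, ← Finset.card_univ]
    refine Finset.sum_le_card_nsmul _ _ _ fun a _ => ?_
    rw [c1_df, Pre.D_def, show (fun x => 1 - g.rd c x) = (fun _ => 1) - g.rd c from rfl,
      dv_sub mdifferentiableAt_const (hb.1.mdifferentiableAt (by simp)), dv_const, Pi.zero_apply,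
      zero_sub, abs_neg]
    exact hb.2 1 [a] le_rfl x

theorem Ct.ts {N : Type} [Zero N] [SMulWithZero ℝ N] (h : Ct g θ T C) (u : X.M → N) :
    tsupport (θ • u) ⊆ g.cor (T + 2) :=
  closure_minimal (fun x hx => by_contra fun e => hx (by simp [h.zero x e])) (isClosed_cor g _)

theorem Ct.hcs {N : Type} [Zero N] [SMulWithZero ℝ N] (h : Ct g θ T C) (hg : g.OK) (u : X.M → N) :
    HasCompactSupport (θ • u) := (hg.cpt _).of_isClosed_subset (isClosed_tsupport _) (h.ts u)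

variable {a : X.M → Ext X.E}

theorem Ct.d_in (h : Ct g θ T C) (hx : x ∈ g.cor T) : dM X.I (θ • a) x = dM X.I a x :=
  Dr59.dM_congr ((h.one x hx).mono fun y hy => by simp [hy])

theorem Ct.d_out (h : Ct g θ T C) (hx : x ∉ g.cor (T + 2)) : dM X.I (θ • a) x = 0 :=
  dM_eq_zero fun e => hx (h.ts a e)

theorem Ct.d_le (h : Ct g θ T C) (ha : Qab60.Fo X.I 1 a) (x : X.M) : ‖c2 g.F (dM X.I (θ • a)) x‖ ≤
    2 * (C * ‖c1 g.F a x‖) + ‖c2 g.F (dM X.I a) x‖ := by
  rw [ha.d_fsmul h.sm, c2_add, c2_fsmul]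
  refine (norm_add_le _ _).trans (add_le_add ((norm_c2_mul ((fo_df h.sm).dg x)).trans ?_) ?_)
  · gcongr; exact h.d x
  · rw [norm_smul]; exact mul_le_of_le_one_left (norm_nonneg _) (h.le x)

theorem ms_cor (T : ℝ) : MeasurableSet (g.cor T) := (isClosed_cor g T).measurableSet

theorem ms_sh (T : ℝ) : MeasurableSet (sh g T) := (ms_cor _).diff (ms_cor _)

theorem int_cor (hg : g.OK) {f : X.M → ℝ} (hf : Continuous f) (T : ℝ) :
    IntegrableOn f (g.cor T) g.F.μ := hf.continuousOn.integrableOn_compact (hg.cpt T)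

theorem int_sh (hg : g.OK) {f : X.M → ℝ} (hf : Continuous f) (T : ℝ) :
    IntegrableOn f (sh g T) g.F.μ := (int_cor hg hf _).mono_set sdiff_subset

theorem sh_eq (hg : g.OK) {f : X.M → ℝ} (hf : Continuous f) (T : ℝ) : ∫ x in sh g T, f x ∂g.F.μ =
    ∫ x in g.cor (T + 2), f x ∂g.F.μ - ∫ x in g.cor T, f x ∂g.F.μ :=
  setIntegral_sdiff (ms_cor _) (int_cor hg hf _) (cor_mono (by linarith))

theorem split (hg : g.OK) {f : X.M → ℝ} (hf : Continuous f) (h : ∀ x ∉ g.cor (T + 2), f x = 0) :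
    ∫ x, f x ∂g.F.μ = ∫ x in g.cor T, f x ∂g.F.μ + ∫ x in sh g T, f x ∂g.F.μ := by
  rw [sh_eq hg hf, setIntegral_eq_integral_of_forall_compl_eq_zero h]; ring

variable (g) in
theorem exists_vol : ∃ V ≥ 0, ∀ T ≥ 0, g.F.μ.real (sh g T) ≤ V := by
  refine ⟨∑ s, 2 * (g.D s).F.μ.real univ, by positivity, fun T hT => ?_⟩
  have k : ∀ s, IsCompact (g.ht s ⁻¹' Icc T (T + 2)) := fun s =>
    isCompact_ht isCompact_Icc (Icc_sub (by linarith) _)
  refine (measureReal_mono (s₂ := ⋃ s, g.ht s ⁻¹' Icc T (T + 2)) (fun x hx => ?_)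
    (isCompact_iUnion k).measure_lt_top.ne).trans ((measureReal_iUnion_fintype_le _).trans
      (Finset.sum_le_sum fun s _ => le_of_eq ?_))
  · obtain ⟨s, hs⟩ := not_forall.1 hx.2
    exact mem_iUnion.2 ⟨s, (not_le.1 hs).le, hx.1 s⟩
  · have := int_Icc (g := g) (s := s) (τ := T) (by linarith) (continuous_const (y := (1 : ℝ))) (T + 2)
    simp only [sl_const] at this
    simpa [mul_comm] using this

theorem cover (g : Gm X κ lam A) : AECover g.F.μ atTop g.cor :=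
  ⟨.of_forall fun x => let ⟨T, h⟩ := exists_cor (g := g) x; eventually_atTop.2 ⟨T, h⟩, ms_cor⟩

theorem zero_of_cor (hg : g.OK) {f : X.M → ℝ} (hf : Continuous f) (h0 : ∀ x, 0 ≤ f x) {c : ℝ}
    (hc : 0 ≤ c) (h : ∀ δ > 0, ∀ᶠ T in atTop, ∫ x in g.cor T, f x ∂g.F.μ + c ≤ δ) :
    (∀ x, f x = 0) ∧ c = 0 := by
  have := openPos g.F.toPre
  have i := (cover g).integrable_of_integral_bounded_of_nonneg_ae 1 (int_cor hg hf)
    (.of_forall h0) ((h 1 one_pos).mono fun T e => by linarith)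
  have l : ∫ x, f x ∂g.F.μ + c ≤ 0 := le_of_forall_pos_le_add fun δ hδ => by
    rw [zero_add]
    exact le_of_tendsto (((cover g).integral_tendsto_of_countably_generated i).add_const c) (h δ hδ)
  have n : 0 ≤ ∫ x, f x ∂g.F.μ := integral_nonneg h0
  exact ⟨congrFun ((hf.ae_eq_iff_eq g.F.μ continuous_zero).1
    ((integral_eq_zero_iff_of_nonneg h0 i).1 (by linarith))), by linarith⟩

end gm

/-! ### the dictionary -/

variable {κ lam ν : Type} [Fintype κ] [Fintype lam] [Fintype ν] [DecidableEq ν] {X : Mf 4} {nc : ℕ}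

theorem gm_ok {e : Bool → En3 κ lam ν} {Z : Pz X nc e} (z : Two Z) (h : Z.OK) : z.gm.OK where
  B := h.bg.B
  G := h.bg.G
  tame := h.bg.tame
  vol := h.vol
  con := h.con
  D s := ⟨(h.en s).cyl.B, (h.en s).cyl.G⟩
  cY s := (e s).con
  dj _ _ k := h.dj k _ (z.hK _) _ (z.hK _)
  cpt T := (h.cpt (T + 1 + ∑ s, |z.o s|)).of_isClosed_subset (isClosed_cor _ _) <| by
    rintro x hx i s K hK hI ⟨q, ⟨-, hq, h1⟩, rfl⟩
    obtain rfl : z.K i = K := Option.some.inj ((z.hK i).symm.trans hK)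
    obtain rfl : i = s := by
      have := z.hp i; have := z.hq i
      cases i <;> cases s <;> simp_all [Sw.Nk.Inf]
    have h2 : M.pm i * ((z.K i).tm ((z.K i).ψ q) - z.o i) - 1 ≤ T := hx i
    have h3 : |z.o i| ≤ ∑ s, |z.o s| :=
      Finset.single_le_sum (f := fun s => |z.o s|) (fun _ _ => abs_nonneg _) (Finset.mem_univ i)
    have h4 : T + 1 + ∑ s, |z.o s| < M.pm i * q.2 := h1
    rw [(z.K i).tm_ψ q ((z.K i).mem_src.2 hq)] at h2
    have := le_abs_self (z.o i); have := neg_abs_le (z.o i)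
    generalize ∑ s, |z.o s| = r at h3 h4
    cases i <;> simp only [M.pm] at h2 h4 <;> norm_num at h2 h4 <;> linarith

variable {b : Bg X.I X.M κ lam ν nc} {a : Fo X κ} {f : X.M → F2 κ}

theorem tam (h : b.OK) : Tam b.F b.B.o := ⟨OK.of_base X.dim h.B h.G, h.tame, h.co⟩

theorem p2_eq (h : b.OK) (x : X.M) : b.p2 x = hs b.F b.B.o x := by
  unfold Bg.p2 hs sd Base.sd Base.a2 Base.st sdm
  rw [h.G.P]

theorem sm_vc (ha : S1 b a) : Sm X.I (vc a) := sm_toLp ha.1

theorem c1_vc (h : b.OK) (ha : S1 b a) : c1 b.F (g1 b.F (vc a)) = vc a := funext fun x =>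
  (c1_g1 _ x).trans (fm_ext fun i => (p1_apply _ i).trans (by rw [h.G.P]; exact ha.2 i x))

theorem d1_eq (h : b.OK) (ha : S1 b a) : d1 b a = c2 b.F (dM X.I (g1 b.F (vc a))) := by
  rw [← dd_c1 (fo_g1 (sm_vc ha)), c1_vc h ha]
  exact funext fun x => fm_ext fun s => (dd_apply (sm_vc ha) x s).symm

variable {α : X.M → Ext X.E}

theorem s1_k1 (h : b.OK) (hα : Qab60.Fo X.I 1 α) : S1 b (k1 b.F α) :=
  ⟨fun i x => sa_k1 _ (hα.sm x) i, fun i x => by rw [← h.G.P]; exact k1_P _ α i x⟩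

theorem d1_k1 (hα : Qab60.Fo X.I 1 α) : d1 b (k1 b.F α) = c2 b.F (dM X.I α) :=
  funext fun x => fm_ext fun s => (k2_dM _ (hα.sm x) (.of_forall hα.dg) s.1 s.2).symm

/-- weakly closed, in the language of forms -/
theorem wcl (h : b.OK)
    (H : ∀ a, S1 b a → (∀ i, HasCompactSupport (a i)) → wd b (d1 b a) f = 0)
    (hα : Qab60.Fo X.I 1 α) (hc : HasCompactSupport α) :
    ∫ x, ⟪c2 b.F (dM X.I α) x, st b.B.o x (f x)⟫_ℝ ∂b.F.μ = 0 := by
  rw [← d1_k1 hα]
  exact H _ (s1_k1 h hα) fun i =>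
    (hcs_c1 (F := b.F) hc).comp_left (g := fun v : V1 (Option κ) => v i) rfl

end Crest.Agent.X212.Clo39
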