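import Crest.Agent.X212.Clo39.Bas

/-! Row 212, RAD-CLO (helper39): bounded one-forms with prescribed self-dual curvature. -/

set_option autoImplicit false
set_option linter.unusedSectionVars false
noncomputable section
open scoped Manifold ContDiff Topology InnerProductSpace
open MeasureTheory Set Function Filter Real
open Crest.Agent.R208.F (Ext)

namespace Crest.Agent.X212.Clo39
open An Sob92 Rad94 Ulc97 Map77 Int54 Sw
open Num57 hiding st c1 c2 g1 c1_add c2_add
open Qab60 hiding Fo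
open Dr59 (dM df)
open M (Mf)

section gm
variable {κ lam A : Type} [Fintype κ] [Fintype lam] [Fintype A] {X : Mf 4} {g : Gm X κ lam A}
  {o : Option κ → Option κ → Option κ → Option κ → X.M → ℝ} {u v : X.M → V2 (Option κ)}
  {γ α : X.M → Ext X.E}

theorem ct_hs (h : Tam g.F o) (hu : Continuous u) : Continuous fun x => hs g.F o x (u x) :=
  h.cb_hs.choose_spec.1.continuous.clm_apply hu

theorem ct_st (h : Tam g.F o) (hu : Continuous u) : Continuous fun x => st o x (u x) := by
  simp only [← hs_sub (F := g.F)]; exact (ct_hs h hu).sub (ct_hs h.neg hu)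

theorem int_l (h : Tam g.F o) (hu : Continuous u) (hv : Continuous v) (hc : HasCompactSupport u) :
    Integrable (fun x => ⟪u x, st o x (v x)⟫_ℝ) g.F.μ := g.F.integrable_inner hu hc (ct_st h hv)

/-- exact forms are isotropic -/
theorem iso (h : Tam g.F o) (hα : Qab60.Fo X.I 1 α) (hγ : Qab60.Fo X.I 1 γ)
    (hc : HasCompactSupport α) :
    ∫ x, ⟪c2 g.F (dM X.I α) x, st o x (c2 g.F (dM X.I γ) x)⟫_ℝ ∂g.F.μ = 0 := by
  have := h.integ_d hα hγ.d hγ.dd hc.mul_right
  rw [integ_mul h.ok hα.d.dg] at this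
  linarith

/-- square integrable functions are small on the shells -/
theorem sh_small (hg : g.OK) {N : X.M → ℝ} (hN : Continuous N)
    (i : Integrable (fun x => N x ^ 2) g.F.μ) {δ : ℝ} (hδ : 0 < δ) :
    ∀ᶠ T in atTop, ∫ x in sh g T, N x ∂g.F.μ ≤ δ := by
  obtain ⟨V, V0, hV⟩ := exists_vol g
  have l := (cover g).integral_tendsto_of_countably_generated i
  have l' := (l.comp (tendsto_atTop_add_const_right _ 2 tendsto_id)).sub l
  rw [sub_self] at l'
  let r := δ / (2 * (V + 1))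
  have r0 : 0 < r := by positivity
  filter_upwards [l'.eventually (gt_mem_nhds (show 0 < r * (δ / 2) by positivity)),
    eventually_ge_atTop 0] with T h1 hT
  have h2 : ∫ x in sh g T, N x ^ 2 ∂g.F.μ < r * (δ / 2) := (sh_eq hg (hN.fun_pow 2) T).trans_lt h1
  have h3 : ∫ x in sh g T, r * N x ∂g.F.μ ≤ ∫ x in sh g T, (r ^ 2 + N x ^ 2) ∂g.F.μ :=
    integral_mono (int_sh hg (by fun_prop) T) (int_sh hg (by fun_prop) T) fun x => by
      nlinarith [sq_nonneg (r - N x), sq_nonneg r, sq_nonneg (N x)]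
  rw [integral_const_mul, integral_add (int_sh hg continuous_const T) (int_sh hg (hN.fun_pow 2) T),
    setIntegral_const, smul_eq_mul] at h3
  have h4 : V * r ≤ δ / 2 := by
    rw [← mul_div_assoc, div_le_div_iff₀ (by positivity) two_pos]; nlinarith
  refine le_of_mul_le_mul_left ?_ r0
  nlinarith [mul_le_mul_of_nonneg_right (hV T hT) (sq_nonneg r), mul_le_mul_of_nonneg_left h4 r0.le]

theorem clo_core (hg : g.OK) (h : Tam g.F o) (hγ : Qab60.Fo X.I 1 γ) {M : ℝ}
    (b1 : ∀ x, ‖c1 g.F γ x‖ ≤ M) (b2 : ∀ x, ‖c2 g.F (dM X.I γ) x‖ ≤ M) (hu : Continuous u)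
    (hc : HasCompactSupport u) (cl : ∀ α, Qab60.Fo X.I 1 α → HasCompactSupport α →
      ∫ x, ⟪c2 g.F (dM X.I α) x, st o x (u x)⟫_ℝ ∂g.F.μ = 0)
    (sd : ∀ x, hs g.F o x (c2 g.F (dM X.I γ) x - u x) = 0)
    (pos : 0 ≤ ∫ x, ⟪u x, st o x (u x)⟫_ℝ ∂g.F.μ) :
    (∀ x, hs g.F (ng o) x (c2 g.F (dM X.I γ) x - u x) = 0) ∧
      ∫ x, ⟪u x, st o x (u x)⟫_ℝ ∂g.F.μ = 0 := by
  obtain ⟨C, C0, hC⟩ := exists_ct hg
  obtain ⟨V, V0, hV⟩ := exists_vol g
  obtain ⟨R, R1, hR⟩ := Rinv39.exists_R g hc.isCompact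
  have M0 : 0 ≤ M := (norm_nonneg _).trans (b1 hg.con.toNonempty.some)
  have cd := (sm_c2 (F := g.F) hγ.d.sm).continuous
  set d := c2 g.F (dM X.I γ)
  let N := fun x => ‖hs g.F (ng o) x (d x - u x)‖
  have hN : Continuous N := (ct_hs h.neg (cd.sub hu)).norm
  have u0 : ∀ T ≥ R, ∀ x ∉ g.cor T, u x = 0 := fun T hT x hx =>
    image_eq_zero_of_notMem_tsupport fun e => hx (cor_mono hT (hR e))
  have key : ∀ T ≥ R, ∫ x in g.cor T, N x ^ 2 ∂g.F.μ + ∫ x, ⟪u x, st o x (u x)⟫_ℝ ∂g.F.μ ≤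
      (2 * (C * M) + M) * ∫ x in sh g T, N x ∂g.F.μ := fun T hT => by
    obtain ⟨θ, k⟩ := hC T (by linarith)
    have hα := hγ.fsmul k.sm
    have cw := (sm_c2 (F := g.F) hα.d.sm).continuous
    have c := hcs_c2 (F := g.F) (Int54.hcs_dM (I := X.I) (k.hcs hg γ))
    have e1 : ∫ x, ⟪_, st o x (d x)⟫_ℝ ∂_ = 0 := iso h hα hγ (k.hcs hg γ)
    have e2 := cl _ hα (k.hcs hg γ)
    have cu : Continuous fun x => ⟪u x, st o x (u x)⟫_ℝ := hu.inner (ct_st h hu)
    have din : ∀ x ∈ g.cor T, c2 g.F (dM X.I (θ • γ)) x = d x := fun x hx =>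
      fm_ext fun s => congrArg (Num57.e2 · _ _) (k.d_in hx)
    have dle := k.d_le hγ
    have dout := fun x hx => c2_of_zero (F := g.F) (k.d_out (a := γ) (x := x) hx)
    set w := c2 g.F (dM X.I (θ • γ))
    have cG : Continuous fun x => ⟪w x, st o x (d x)⟫_ℝ - 2 * ⟪w x, st o x (u x)⟫_ℝ :=
      (cw.inner (ct_st h cd)).sub ((cw.inner (ct_st h hu)).const_mul 2)
    have e3 := split (T := T) hg cG fun x hx => by simp [dout x hx]
    rw [integral_sub (int_l h cw cd c) ((int_l h cw hu c).const_mul 2), integral_const_mul, e1, e2,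
      setIntegral_congr_fun (g := fun x => -(N x ^ 2 + ⟪u x, st o x (u x)⟫_ℝ)) (ms_cor T) fun x hx => by
        have i1 := inner_st h.ok x (d x - u x)
        have i2 := st_symm h.ok x (u x) (d x)
        rw [sd, norm_zero, map_sub, inner_sub_left, inner_sub_right, inner_sub_right] at i1
        rw [real_inner_comm] at i2
        simp only [din x hx, N]
        linarith,
      integral_neg, integral_add (int_cor hg (hN.fun_pow 2) T) (int_cor hg cu T),
      setIntegral_eq_integral_of_forall_compl_eq_zero (f := fun x => ⟪u x, _⟫_ℝ)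
        fun x hx => by simp [u0 T hT x hx]] at e3
    rw [← integral_const_mul]
    refine le_trans (by linarith) (setIntegral_mono_on (int_sh hg cG T)
      (int_sh hg (hN.const_mul _) T) (ms_sh T) fun x hx => ?_)
    have i1 := sd x
    have i2 := hs_sub (F := g.F) (o := o) x (d x)
    simp only [N, u0 T hT x hx.2, sub_zero, map_zero, inner_zero_right, mul_zero] at i1 ⊢
    rw [← i2, i1, zero_sub, inner_neg_right]
    refine (neg_le_abs _).trans ((abs_real_inner_le_norm _ _).trans ?_)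
    gcongr
    refine (dle x).trans ?_
    gcongr
    exacts [b1 x, b2 x]
  have i : Integrable (fun x => N x ^ 2) g.F.μ :=
    (cover g).integrable_of_integral_bounded_of_nonneg_ae ((2 * (C * M) + M) * (M * V))
      (int_cor hg (hN.fun_pow 2)) (.of_forall fun x => sq_nonneg _) <| by
        filter_upwards [eventually_ge_atTop R] with T hT
        refine (le_add_of_nonneg_right pos).trans ((key T hT).trans ?_)
        gcongr
        refine (setIntegral_mono_on (int_sh hg hN T) (int_sh hg (continuous_const (y := M)) T)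
          (ms_sh T) fun x hx => ?_).trans ?_
        · simp only [N, u0 T hT x hx.2, sub_zero]
          exact (norm_hs_le h.ok.neg x _).trans (b2 x)
        · rw [setIntegral_const, smul_eq_mul, mul_comm]
          gcongr; exact hV T (by linarith)
  have K0 : 0 ≤ 2 * (C * M) + M := by positivity
  obtain ⟨z, z'⟩ := zero_of_cor hg (hN.fun_pow 2) (fun x => sq_nonneg _) pos fun δ hδ => by
    filter_upwards [eventually_ge_atTop R, sh_small hg hN i
      (show 0 < δ / (2 * (C * M) + M + 1) by positivity)] with T hT e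
    refine (key T hT).trans ((mul_le_mul_of_nonneg_left e K0).trans ?_)
    rw [← mul_div_assoc, div_le_iff₀ (by positivity)]; nlinarith
  exact ⟨fun x => norm_eq_zero.1 (pow_eq_zero_iff two_ne_zero |>.1 (z x)), z'⟩

end gm

variable {κ lam ν : Type} [Fintype κ] [Fintype lam] [Fintype ν] [DecidableEq ν]

theorem bd_sum {X : Mf 4} {F : Fr X.I X.M (Option κ)} {α : Type} [Fintype α] {f : α → X.M → ℝ}
    (h : ∀ a, F.Cb (f a)) : ∃ M, ∀ x, ‖(WithLp.toLp 2 fun a => f a x : Fm α ℝ)‖ ≤ M := by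
  choose C hC using h
  exact ⟨∑ a, C a 0, fun x => (norm_le_sum _).trans
    (Finset.sum_le_sum fun a _ => CB_bound ((hC a).2 0) x)⟩

variable (κ lam ν) in
/-- **LEAF CLO** -/
theorem clo : CloStmt κ lam ν := by
  intro X nc k e Z z η hZ hη _ hex pos γ s hγ hs'
  have hb := hZ.bg
  obtain ⟨C, hC⟩ := hb.tame
  obtain ⟨M1, h1⟩ := bd_sum hγ.2
  obtain ⟨M2, h2⟩ := bd_sum (F := Z.bg.F) (f := fun (s : Option κ × Option κ) x =>
    Z.bg.F.D s.1 (γ s.2) x - Z.bg.F.D s.2 (γ s.1) x - ∑ j, Z.bg.F.c s.1 s.2 j x * γ j x) fun s =>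
      Cb_sub (Cb_sub (Cb_D (hγ.2 _) _) (Cb_D (hγ.2 _) _))
        (Cb_sum _ fun j _ => Cb_smul ⟨C, hC.c _ _ _⟩ (hγ.2 j))
  have cs : ∀ i, Continuous (s i • η i) := fun i => (hη i).sm.continuous.const_smul _
  have hc : ∀ i, HasCompactSupport (s i • η i) := fun i => (hη i).cpt.smul_left (f := fun _ => s i)
  have cu : Continuous (∑ i, s i • η i) := by
    rw [Finset.sum_fn]; exact continuous_finsetSum _ fun i _ => cs i
  have p0 : 0 ≤ wd Z.bg (∑ i, s i • η i) (∑ i, s i • η i) := by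
    rcases eq_or_ne s 0 with rfl | h
    · simp [wd]
    · exact (pos s h).le
  have sd : ∀ x, hs Z.bg.F Z.bg.B.o x (d1 Z.bg γ x - (∑ i, s i • η i) x) = 0 := fun x => by
    simp only [← p2_eq hb, map_sub, hs' x, Finset.sum_apply, Pi.smul_apply, map_sum, map_smul, sub_self]
  rw [d1_eq hb hγ.1] at sd
  obtain ⟨z1, z2⟩ := clo_core (gm_ok z hZ) (tam hb) (fo_g1 (sm_vc hγ.1)) (M := max M1 M2)
    (fun x => le_max_of_le_left (by rw [c1_vc hb hγ.1]; exact h1 x))
    (fun x => le_max_of_le_right (by rw [← d1_eq hb hγ.1]; exact h2 x)) cu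
    (HasCompactSupport.finset_sum fun i _ => hc i) (fun α hα c => by
      simp only [Finset.sum_apply, Pi.smul_apply, map_sum, map_smul, inner_sum, inner_smul_right]
      rw [integral_finsetSum _ fun i _ => (int_l (g := z.gm) (tam hb) (sm_c2 hα.d.sm).continuous
        (hη i).sm.continuous (hcs_c2 (Int54.hcs_dM c))).const_mul _]
      simp only [integral_const_mul]
      exact Finset.sum_eq_zero fun i _ => mul_eq_zero_of_right _ (wcl hb (hη i).cl hα c)) sd p0
  obtain rfl : s = 0 := by_contra fun h => (pos s h).ne' z2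
  refine ⟨rfl, hex γ hγ.1 (funext fun x => ?_)⟩
  have := hs_add (F := Z.bg.F) (o := Z.bg.B.o) (dM X.I (g1 Z.bg.F (vc γ))) x
  simp only [Pi.zero_apply, zero_smul, Finset.sum_const_zero, sub_zero] at sd z1
  rw [d1_eq hb hγ.1, ← this, sd, z1 x, add_zero]; rfl

end Crest.Agent.X212.Clo39
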