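import Crest.Agent.X212.Clo39.Bas
import Crest.Agent.X212.Qd40.Tail

/-! Row 212, RAD-COK (helper39): decaying primitives of decaying closed two-forms on the ends. -/

set_option autoImplicit false
set_option linter.unusedSectionVars false
noncomputable section
open scoped Manifold ContDiff Topology InnerProductSpace
open MeasureTheory Set Function Filter Real
open Crest.Agent.R208.F (Ext)
open Crest.Agent.R208.FI (IsDeg)

namespace Crest.Agent.X212.Clo39
open An Sob92 Rad94 Ulc97 Map77 Int54 Cyf70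
open Num57 hiding st c1 c2 g1 c1_add c2_add
open Qab60 hiding Fo
open Dr59 (dM df SmAt)
open M (Mf)

theorem cl_at {Y : Mf 3} [CompactSpace Y.M] {κ : Type} [Fintype κ] (F : Fr Y.I Y.M κ) {x : Y.M × ℝ}
    {w : Y.M × ℝ → Ext (Y.E × ℝ)} (hw : SmAt (IC Y.I) w x) (hd : ∀ y, IsDeg 2 (w y))
    (h0 : dM (IC Y.I) w x = 0) (a b : Option κ) :
    (cyl F).D none (k2 (cyl F) w a b) x = (cyl F).D a (k2 (cyl F) w none b) x -
      (cyl F).D b (k2 (cyl F) w none a) x - ∑ k, (cyl F).c a b k x * k2 (cyl F) w none k x := by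
  let L : Ext (Y.E × ℝ) →L[ℝ] ℝ := LinearMap.toContinuousLinearMap
    { toFun := fun c => e2 c (ee (cyl F) x a) (ee (cyl F) x b)
      map_add' := fun _ _ => e2_add _ _ _ _
      map_smul' := fun _ _ => e2_smul _ _ _ _ }
  have h1 := L.hasFDerivAt.comp_hasDerivAt x.2 (Qd40.cartan_t (F := F) hw)
  have h2 := k2_dM (cyl F) (Int54.cAt_ic le_rfl ((cyl F).sm none x) hw)
    (.of_forall fun y => (hd y).ii _) a b
  have e : ∀ i, k1 (cyl F) (ic (IC Y.I) ((cyl F).e none) w) i = k2 (cyl F) w none i := fun i =>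
    funext fun _ => (e2_eq _ _ _).symm
  rw [h0, map_zero, add_zero] at h1
  simp only [e] at h2
  rw [← h2]
  refine (D_none_at F.toPre ((sa_k2 (cyl F) hw a b).mdifferentiableAt (by simp))).trans
    (HasDerivAt.deriv (h1.congr_of_eventuallyEq (.of_forall fun s => ?_)))
  change e2 _ _ _ = e2 _ _ _
  rw [Qd40.ee_t a x.1 s x.2, Qd40.ee_t b x.1 s x.2]

variable {κ lam A : Type} [Fintype κ] [Fintype lam] [Fintype A] {X : Mf 4} {g : Gm X κ lam A}
  {N N' : Type} [NormedAddCommGroup N] [NormedSpace ℝ N] [NormedAddCommGroup N'] [NormedSpace ℝ N']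
  {s : A} {r d : ℝ} {x : X.M} {u : X.M → N} {w : X.M → Ext X.E}

theorem op_U (g : Gm X κ lam A) (s : A) (r : ℝ) : IsOpen {x | r < g.ht s x} :=
  isOpen_lt continuous_const (cont_ht g s)

/-- closed two-forms in components -/
theorem cl_end (hw : Qab60.Fo X.I 2 w) (h0 : dM X.I w = 0) (hx : -1 < g.ht s x) (a b : Option κ) :
    g.F.D none (k2 g.F w a b) x = g.F.D a (k2 g.F w none b) x -
      g.F.D b (k2 g.F w none a) x - ∑ k, g.F.c a b k x * k2 g.F w none k x := by
  have hq := (g.K s).ψ.map_target (mem_tgt.2 hx)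
  have sm := iso_smAt (g.K s).iso hq
  have e : ∀ a b, ∀ z ∈ (g.K s).ψ.source, k2 (cyl (g.D s).F)
      (Dr59.pm (IC (g.Y s).I) X.I (g.K s).ψ w) a b z =
      k2 g.F w a b ((g.K s).ψ z) := fun a b z hz => by
    have k : ∀ i, Dr59.mf (IC (g.Y s).I) X.I (g.K s).ψ z (ee (g.D s).Z z i) =
        ee g.F ((g.K s).ψ z) i := fun i => (g.K s).iso.e i z hz
    change e2 _ _ _ = e2 _ _ _
    rw [← k, ← k, Dr59.pm_apply, e2_pb]
    rfl
  have := cl_at (g.D s).F ((hw.sm _).pm sm) (fun y => (hw.dg _).pb _)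
    (by rw [Dr59.dM_pm Dr59.ne0 sm (hw.sm _), h0, Dr59.pm_zero]; rfl) a b
  simp only [fun a b i => (g.K s).rel.D hq i (eventually_of_mem ((g.K s).ψ.open_source.mem_nhds hq)
    (e a b)), e _ _ _ hq, (g.K s).rel.c hq, (g.K s).ψ.right_inv (mem_tgt.2 hx)] at this
  exact this

variable (g s) in
/-- the translation -/
def tr (r : ℝ) (x : X.M) : X.M := g.pt s (g.ht s x + r) ((g.K s).ψ.symm x).1

theorem tr_ψ {z : (g.Y s).M × ℝ} (hz : z ∈ (g.K s).ψ.source) :
    tr g s r ((g.K s).ψ z) = (g.K s).ψ (z.1, z.2 + g.sg s * r) := by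
  rw [tr, (g.K s).ψ.left_inv hz, Gm.pt, Gm.ht, (g.K s).tm_ψ z hz, Gm.tt]
  congr 2
  linear_combination (z.2 - g.o s) * sg_sq g s

theorem tr_zero (hx : -1 < g.ht s x) : tr g s 0 x = x := by rw [tr, add_zero, pt_ht hx]

section tr
variable (hx : -1 < g.ht s x) (hr : 0 ≤ r)
include hx hr

theorem ht_tr : g.ht s (tr g s r x) = g.ht s x + r := ht_pt (by linarith) _

theorem smAt_tr : ContMDiffAt X.I X.I ∞ (tr g s r) x :=
  ContMDiffAt.comp (g := Ψ g s) (f := fun x => (((g.K s).ψ.symm x).1, g.ht s x + r)) x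
    (smAt_Ψ (by linarith)) ((contMDiffAt_fst.comp x (iso_smAt (iso_symm (g.K s).iso)
      (mem_tgt.2 hx))).prodMk ((smAt_ht hx).add contMDiffAt_const))

theorem tr_ex : ∃ z ∈ (g.K s).ψ.source, (z.1, z.2 + g.sg s * r) ∈ (g.K s).ψ.source ∧
    x = (g.K s).ψ z ∧ tr g s r x = (g.K s).ψ (z.1, z.2 + g.sg s * r) := by
  refine ⟨(_, g.tt s (g.ht s x)), mem_src hx _, ?_, (pt_ht hx).symm, ?_⟩
  · convert mem_src (g := g) (s := s) (τ := g.ht s x + r) (by linarith) _ using 2
    simp only [Gm.tt]; ring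
  · rw [← tr_ψ (mem_src hx _)]; exact congrArg _ (pt_ht hx).symm

theorem D_tr (hu : Sm X.I u) (a : Option κ) :
    g.F.D a (fun x => u (tr g s r x)) x = g.F.D a u (tr g s r x) := by
  obtain ⟨z, h1, h2, rfl, e⟩ := tr_ex hx hr
  rw [e, ← (g.K s).rel.D h2 a (u := fun z => u ((g.K s).ψ z)) (.of_forall fun _ => rfl),
    ← (Qd40.D_sh (g := fun z => u ((g.K s).ψ z))
      (((hu _).comp _ (iso_smAt (g.K s).iso h2)).mdifferentiableAt (by simp))).2 a]
  exact ((g.K s).rel.D h1 a (u' := fun x => u (tr g s r x)) (eventually_of_mem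
    ((g.K s).ψ.open_source.mem_nhds h1) fun z hz => congrArg u (tr_ψ hz).symm)).symm

theorem c_tr (a b k : Option κ) : g.F.c a b k (tr g s r x) = g.F.c a b k x := by
  obtain ⟨z, h1, h2, rfl, e⟩ := tr_ex hx hr
  rw [e, ← (g.K s).rel.c h1, ← (g.K s).rel.c h2]
  exact Qd40.c_t a b k _ _ z.2

theorem hp_tr : hp g.F (tr g s r x) = hp g.F x := by
  obtain ⟨z, h1, h2, rfl, e⟩ := tr_ex hx hr
  simp only [hp, e, ← (g.K s).rel.P h1, ← (g.K s).rel.P h2]
  exact congrArg p1 (funext₂ fun a b => Qd40.P_t a b _ _ z.2)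

end tr

variable (g s) in
/-- the integral over the tail -/
def ti (u : X.M → N) (x : X.M) : N := ∫ r in Ioi (0 : ℝ), u (tr g s r x)

variable (g d) in
/-- smooth decaying functions -/
structure Dc (u : X.M → N) : Prop where
  sm : Sm X.I u
  dc : ∀ v : List (Option κ), ∃ K, ∀ s x, -1 < g.ht s x → ‖g.F.Dw v u x‖ ≤ K * exp (-d * g.ht s x)

namespace Dc

theorem D (h : Dc g d u) (a : Option κ) : Dc g d (g.F.D a u) :=
  ⟨g.F.sm_D h.sm a, fun v => h.dc (a :: v)⟩

theorem clm (h : Dc g d u) (L : N →L[ℝ] N') : Dc g d fun x => L (u x) :=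
  ⟨L.contMDiff.comp h.sm, fun v => let ⟨C, k⟩ := h.dc v
    ⟨‖L‖ * C, fun s x hx => by
      rw [Qd40.Dw_clm isOpen_univ L v (fun x _ => h.sm x) trivial, mul_assoc]
      exact L.le_opNorm_of_le (k s x hx)⟩⟩

theorem bd (h : Dc g d u) : ∃ C ≥ 0, ∀ s x, -1 < g.ht s x → ∀ r ≥ 0,
    ‖u (tr g s r x)‖ ≤ C * exp (-d * g.ht s x) * exp (-d * r) :=
  let ⟨C, k⟩ := h.dc []
  ⟨|C|, abs_nonneg C, fun s x hx r hr => (k s _ (by linarith [ht_tr hx hr])).trans (by
    rw [ht_tr hx hr, mul_assoc, ← exp_add, ← mul_add]; gcongr; exact le_abs_self C)⟩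

theorem der (h : Dc g d u) (hx : -1 < g.ht s x) (hr : 0 ≤ r) :
    HasDerivAt (fun r => u (tr g s r x)) (g.sg s • g.F.D none u (tr g s r x)) r :=
  (hasDerivAt_pt h.sm (by linarith) _).comp_const_add (g.ht s x) r

variable (hd : 0 < d)
include hd

theorem int (h : Dc g d u) (hx : -1 < g.ht s x) : IntegrableOn (fun r => u (tr g s r x)) (Ioi 0) :=
  let ⟨_, _, k⟩ := h.bd
  ((exp_neg_integrableOn_Ioi 0 hd).const_mul _).mono' (ContinuousOn.aestronglyMeasurable
    (fun _ hr => (h.der hx (le_of_lt hr)).continuousAt.continuousWithinAt) measurableSet_Ioi)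
    ((ae_restrict_mem measurableSet_Ioi).mono fun r hr => k s x hx r (le_of_lt hr))

variable [CompleteSpace N]

theorem D_ti (h : Dc g d u) (hx : -1 < g.ht s x) : MDifferentiableAt X.I 𝓘(ℝ, N) (ti g s u) x ∧
    ∀ a, g.F.D a (ti g s u) x = ti g s (g.F.D a u) x := by
  choose C C0 hC using fun a => (h.D a).bd
  have e' : ∀ a, (fun r => g.F.D a u (tr g s r x)) =ᵐ[volume.restrict (Ioi 0)]
      fun r => g.F.D a (fun z => u (tr g s r z)) x := fun a =>
    (ae_restrict_mem measurableSet_Ioi).mono fun r hr => (D_tr hx (le_of_lt hr) h.sm a).symm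
  have S0 := Finset.sum_nonneg fun a (_ : a ∈ Finset.univ) => C0 a
  obtain ⟨h1, h2⟩ := Qd40.D_int g.F.toPre (u := fun r z => u (tr g s r z))
    ((op_U g s (-1)).mem_nhds hx)
    ((exp_neg_integrableOn_Ioi 0 hd).const_mul ((∑ a, C a) * exp (-d * -1)))
    (fun y hy => h.int hd hy) (fun a => ((h.D a).int hd hx).congr (e' a))
    ((ae_restrict_mem measurableSet_Ioi).mono fun r hr => ⟨by positivity, fun y hy =>
      ⟨((h.sm _).comp y (smAt_tr hy (le_of_lt hr))).mdifferentiableAt (by simp), fun a =>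
        (D_tr hy (le_of_lt hr) h.sm a).symm ▸ (hC a s y hy r (le_of_lt hr)).trans (by
        have := Finset.single_le_sum (fun a _ => C0 a) (Finset.mem_univ a)
        have : -d * g.ht s y ≤ -d * -1 := by nlinarith [show -1 < g.ht s y from hy]
        gcongr)⟩⟩)
  exact ⟨h1, fun a => (h2 a).trans (integral_congr_ae (e' a)).symm⟩

theorem sm_ti (h : Dc g d u) (hx : -1 < g.ht s x) : ContMDiffAt X.I 𝓘(ℝ, N) ∞ (ti g s u) x :=
  Qd40.sm_class g.F.toPre (op_U g s (-1)) (fun v => ∃ u, Dc g d u ∧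
    EqOn v (ti g s u) {x | -1 < g.ht s x}) (fun _ ⟨_, k, e⟩ => ⟨fun _ hy =>
      (k.D_ti hd hy).1.congr_of_eventuallyEq (eventually_of_mem ((op_U g s (-1)).mem_nhds hy) e),
      fun a => ⟨_, k.D a, (Qd40.D_on (op_U g s (-1)) e a).trans fun _ hy => (k.D_ti hd hy).2 a⟩⟩)
    ⟨u, h, fun _ _ => rfl⟩ hx

theorem ti_le (h : Dc g d u) : ∃ K, ∀ s x, -1 < g.ht s x → ‖ti g s u x‖ ≤ K * exp (-d * g.ht s x) := by
  obtain ⟨C, -, k⟩ := h.bd
  refine ⟨C * ∫ r in Ioi (0 : ℝ), exp (-d * r), fun s x hx => ?_⟩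
  rw [mul_right_comm, ← integral_const_mul]
  exact norm_integral_le_of_norm_le ((exp_neg_integrableOn_Ioi 0 hd).const_mul _)
    ((ae_restrict_mem measurableSet_Ioi).mono fun r hr => k s x hx r (le_of_lt hr))

theorem ftc (h : Dc g d u) (hx : -1 < g.ht s x) : g.sg s • ti g s (g.F.D none u) x = -u x := by
  obtain ⟨C, -, k⟩ := h.bd
  have h0 : Tendsto (fun r => u (tr g s r x)) atTop (𝓝 0) := by
    refine squeeze_zero_norm' ((eventually_ge_atTop 0).mono (k s x hx)) ?_
    simpa using (tendsto_exp_atBot.comp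
      (tendsto_id.const_mul_atTop_of_neg (neg_neg_iff_pos.2 hd))).const_mul (C * exp (-d * g.ht s x))
  have := integral_Ioi_of_hasDerivAt_of_tendsto' (fun r hr => h.der hx hr)
    (((h.D none).int hd hx).smul (g.sg s)) h0
  rwa [integral_smul, tr_zero hx, zero_sub] at this

end Dc

/-- **decaying primitives** -/
theorem prim (hg : g.OK) (hd : 0 < d) (hw : Qab60.Fo X.I 2 w) (h0 : dM X.I w = 0)
    (h : Dc g d (c2 g.F w)) : ∃ α, Qab60.Fo X.I 1 α ∧ (∀ s x, 1 < g.ht s x → dM X.I α x = w x) ∧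
      ∃ K, ∀ s x, -1 < g.ht s x → ‖c1 g.F α x‖ ≤ K * exp (-d * g.ht s x) := by
  have hk : ∀ a b, Dc g d (k2 g.F w a b) := fun a b => h.clm (pj ℝ (a, b))
  let L : V2 (Option κ) →L[ℝ] V1 (Option κ) := Map77.tp fun i => pj ℝ (none, i)
  have hL := h.clm L
  have pL : ∀ y, hp g.F y (L (c2 g.F w y)) = L (c2 g.F w y) := fun y => fm_ext fun i =>
    (p1_apply _ i).trans ((cf g.F y).p2' (w y) i (ee g.F y none))
  let v : A → X.M → V1 (Option κ) := fun s => ti g s fun x => L (c2 g.F w x)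
  let u : X.M → V1 (Option κ) := fun x => ∑ s, (-g.sg s * χ (g.ht s x)) • v s x
  have z : ∀ t < 0, χ t = 0 := fun t ht => smoothTransition.zero_of_nonpos ht.le
  have hu : Sm X.I u := fun x => ContMDiffAt.sum fun s _ => by
    rcases lt_or_ge (-1) (g.ht s x) with hx | hx
    · exact (contMDiffAt_const.mul (sm_rad (by norm_num) smoothTransition.contDiff z x)).smul
        (hL.sm_ti hd hx)
    · exact (contMDiffAt_const (c := 0)).congr_of_eventuallyEq
        ((ev_rad z (by linarith)).mono fun y hy => by simp [show χ (g.ht s y) = 0 from hy])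
  have e0 : ∀ s x, -1 < g.ht s x → u x = (-g.sg s * χ (g.ht s x)) • v s x := fun s x hx =>
    Finset.sum_eq_single s (fun s' _ e => by simp [z _ (show g.ht s' x < 0 by
      linarith [ht_ne hg e.symm hx])]) (by simp)
  have pu : ∀ x, hp g.F x (u x) = u x := fun x => by
    by_cases k : ∃ s, -1 < g.ht s x
    · obtain ⟨s, hx⟩ := k
      rw [e0 s x hx, map_smul]
      refine congrArg _ (((hp g.F x).integral_comp_comm (hL.int hd hx)).symm.trans
        (setIntegral_congr_fun measurableSet_Ioi fun r hr => ?_))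
      have := pL (tr g s r x)
      rwa [hp_tr hx (le_of_lt hr)] at this
    · rw [show u x = 0 from Finset.sum_eq_zero fun s _ => by
        simp [z _ (show g.ht s x < 0 by linarith [not_lt.1 (not_exists.1 k s)])], map_zero]
  have e1 : ∀ s i, EqOn (fun x => u x i) (-g.sg s • ti g s (k2 g.F w none i)) {x | 1 < g.ht s x} :=
    fun s i x (hx : 1 < g.ht s x) => by
    have := (pj ℝ i).integral_comp_comm (hL.int hd (show -1 < g.ht s x by linarith))
    simp only [e0 s x (by linarith), smoothTransition.one_of_one_le hx.le, mul_one]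
    exact congrArg (-g.sg s * ·) this.symm
  obtain ⟨K, hK⟩ := hL.ti_le hd
  refine ⟨g1 g.F u, fo_g1 hu, fun s x hx => (cf g.F x).ext2' ((fo_g1 hu).d.dg x) (hw.dg x)
    fun a b => ?_, K, fun s x hx => ?_⟩
  · have h1 : -1 < g.ht s x := by linarith
    have e2 : ∀ a i, g.F.D a (fun x => u x i) x = -g.sg s * ti g s (g.F.D a (k2 g.F w none i)) x :=
      fun a i => (Qd40.D_on (op_U g s 1) (e1 s i) a hx).trans ((dv_const_smul _
        ((hk _ i).D_ti hd h1).1).trans (congrArg _ (((hk _ i).D_ti hd h1).2 a)))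
    have i1 := fun a i => ((hk none i).D a).int hd h1
    have i2 := fun k => ((hk none k).int hd h1).const_mul (g.F.c a b k x)
    have e3 := (hk a b).ftc hd h1
    rw [ti, setIntegral_congr_fun measurableSet_Ioi fun r hr =>
      cl_end hw h0 (s := s) (by linarith [ht_tr h1 (le_of_lt hr), show 0 < r from hr]) a b,
      setIntegral_congr_fun (g := fun r => _ - ∑ k, g.F.c a b k x * _) measurableSet_Ioi
        fun r hr => by simp only [c_tr h1 (le_of_lt hr)]; rfl,
      integral_sub (by exact (i1 a b).sub (i1 b a)) (integrable_finsetSum _ fun k _ => i2 k),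
      integral_sub (i1 a b) (i1 b a), integral_finsetSum _ fun k _ => i2 k] at e3
    refine (congrArg (fun f : X.M → V2 (Option κ) => f x (a, b)) (c2_dM_g1 hu pu)).trans ?_
    rw [dd_apply hu, e2, e2]
    simp only [fun i => show u x i = _ from e1 s i hx, Pi.smul_apply, smul_eq_mul, ti,
      integral_const_mul, mul_left_comm _ (-g.sg s), ← Finset.mul_sum] at e3 ⊢
    change _ = k2 g.F w a b x
    linarith
  · rw [c1_g1, pu, e0 s x hx, norm_smul]
    refine (mul_le_of_le_one_left (norm_nonneg _) ?_).trans (hK s x hx)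
    rw [Real.norm_eq_abs, abs_mul, abs_neg, abs_sg, one_mul,
      abs_of_nonneg (smoothTransition.nonneg _)]
    exact smoothTransition.le_one _

end Crest.Agent.X212.Clo39
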