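import Crest.Agent.X212.Clo39.Clo
import Crest.Agent.X212.Clo39.Tail

/-! Row 212, RAD-COK (helper39): decaying closed self-dual forms. -/

set_option autoImplicit false
set_option linter.unusedSectionVars false
noncomputable section
open scoped Manifold ContDiff Topology InnerProductSpace
open MeasureTheory Set Function Filter Real
open Crest.Agent.R208.F (Ext)

namespace Crest.Agent.X212.Clo39
open An Sob92 Rad94 Ulc97 Map77 Int54 Sw
open Num57 hiding st c1 c2 g1 c1_add c2_add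
open Qab60 hiding Fo
open Dr59 (dM df)
open M (Mf)
open Rinv39 (Wg ew)

section gm
variable {κ lam A : Type} [Fintype κ] [Fintype lam] [Fintype A] {X : Mf 4} {g : Gm X κ lam A}
  {N : Type} [NormedAddCommGroup N] [InnerProductSpace ℝ N] {u : X.M → N} {d : ℝ}
  {o : Option κ → Option κ → Option κ → Option κ → X.M → ℝ} {w : X.M → Ext X.E}

theorem Dw_app (v v' : List (Option κ)) : ∀ u : X.M → N,
    g.F.Dw (v ++ v') u = g.F.Dw v' (g.F.Dw v u) := by
  induction v with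
  | nil => exact fun _ => rfl
  | cons a v ih => exact fun _ => ih _

theorem fl_ew {φ : X.M → ℝ} (h : Wg g.F φ) (k : ℕ) : ∀ {u : X.M → N}, Sm X.I u →
    (∀ v, MemLp (ew φ (g.F.Dw v u)) 2 g.F.μ) → FL g.F.toPre k (ew φ u) := by
  induction k with
  | zero => exact fun _ H => H []
  | succ k ih =>
    intro u hu H
    refine ⟨H [], fun a => ?_⟩
    obtain ⟨C, hC⟩ := h.cb a
    have e : g.F.D a (ew φ u) = ew φ (g.F.D a u) + fun x => g.F.D a φ x • ew φ u x := by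
      rw [Nk89.D_exp_smul _ h.sm hu]
      exact funext fun x => by simp only [ew, smul_add, Pi.add_apply, smul_comm (exp (φ x))]
    show FL g.F.toPre k (g.F.D a (ew φ u))
    rw [e]
    exact ML.add g.F.sm (h.sm_ew (g.F.sm_D hu a)) (hC.1.smul (h.sm_ew hu))
      (ih (g.F.sm_D hu a) fun v => H (a :: v))
      (N2_mul (ContinuousLinearMap.lsmul ℝ ℝ) hC.1 (h.sm_ew hu) (hC.2 k) (ih hu H)).1

theorem sup_fl (hg : g.OK) (hu : Sm X.I u) (h : FL g.F.toPre 4 u) : ∃ K, ∀ x, ‖u x‖ ≤ K := by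
  obtain ⟨C, hC⟩ := hg.tame
  refine ⟨√(|C 0| * ((cK (Option κ) 4 * ‖(ContinuousLinearMap.lsmul ℝ ℝ : ℝ →L[ℝ] N →L[ℝ] N)‖ *
    C 4) ^ 2 * N2 g.F.toPre 4 u)), fun x => le_sqrt_of_sq_le ?_⟩
  obtain ⟨θ, h1, h2, -, h3⟩ := hC.exh {x} isCompact_singleton
  have := (Sup.of_tame hC).sq_le (h1.1.smul hu) h2.smul_right x
  rw [Pi.smul_apply', h3 x rfl, one_smul] at this
  exact this.trans (mul_le_mul_of_nonneg_left
    (N2_mul (ContinuousLinearMap.lsmul ℝ ℝ) h1.1 hu (h1.2 4) h).2 (abs_nonneg _))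

/-- pointwise decay -/
theorem dc_of_fi (hg : g.OK) (hd : 0 < d) (hu : Sm X.I u)
    (h : ∀ v, g.Fi (fun _ => -d) (g.F.Dw v u)) : Dc g d u := by
  let c : A → ℝ → ℝ := Rinv39.cw 0 0 (fun _ => d) fun _ => 0
  have hc : Rd c := Rinv39.rd_cw le_rfl le_rfl
  have hφ : Wg g.F (Rinv39.ph g 0 c) := Rinv39.wg_cw le_rfl le_rfl
  have m : ∀ v, MemLp (ew (Rinv39.ph g 0 c) (g.F.Dw v u)) 2 g.F.μ := fun v => by
    have cv := (sm_Dw (F := g.F.toPre) hu v).continuous
    refine (Rinv39.memLp_iff hg (Rinv39.cont_ew hc cv)).2 fun s => Integrable.mono' (h v s)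
      (((Rinv39.cont_n2 (Rinv39.cont_ew hc cv)).mono
        (Ioi_subset_Ioi (by norm_num))).aestronglyMeasurable measurableSet_Ioi)
      ((ae_restrict_mem measurableSet_Ioi).mono fun τ (hτ : 0 < τ) => ?_)
    rw [Real.norm_of_nonneg (n2_nn _ _), Rinv39.n2_ew hg hc (by linarith), mul_comm]
    refine mul_le_mul_of_nonneg_left (exp_le_exp.2 ?_) (n2_nn _ _)
    have := (Rinv39.rh_mem 0 τ).2.1
    rw [sub_zero, max_eq_left hτ.le] at this
    simp only [c, Rinv39.cw]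
    nlinarith
  refine ⟨hu, fun v => ?_⟩
  obtain ⟨K, hK⟩ := sup_fl hg (hφ.sm_ew (sm_Dw hu v))
    (fl_ew hφ 4 (sm_Dw hu v) fun v' => Dw_app (g := g) v v' u ▸ m _)
  refine ⟨K * exp d, fun s x hx => ?_⟩
  have h1 := hK x
  have h2 := (Rinv39.rh_mem 0 (g.ht s x)).2.2
  rw [norm_smul, Real.norm_of_nonneg (exp_pos _).le, Rinv39.ph,
    rd_eq hg (fun s t h => (hc s).2 t (by linarith)) hx, mul_comm, ← le_div_iff₀ (exp_pos _),
    div_eq_mul_inv, ← exp_neg] at h1
  rw [mul_assoc, ← exp_add]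
  refine h1.trans (mul_le_mul_of_nonneg_left (exp_le_exp.2 ?_) ((norm_nonneg _).trans (hK x)))
  simp only [c, Rinv39.cw]
  nlinarith

/-- weakly closed forms are closed -/
theorem closed (h : Tam g.F o) (hw : Qab60.Fo X.I 2 w) (cl : ∀ α, Qab60.Fo X.I 1 α →
    HasCompactSupport α → ∫ x, ⟪c2 g.F (dM X.I α) x, st o x (c2 g.F w x)⟫_ℝ ∂g.F.μ = 0) :
    dM X.I w = 0 :=
  h.three hw.d fun a ha hc => by
    have h1 := integ_mul h.ok ha.d.dg w
    have h2 := stokes_sm (ori h.ok) (ha.mul hw).sm hc.mul_right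
    have c : ∀ {u : X.M → Ext X.E} {k : ℕ}, Qab60.Fo X.I k u → HasCompactSupport u →
        IntOn X.I (vol g.F o) u Set.univ := fun hu hc =>
      (ori h.ok).intOn_of_hcs (fun x => (hu.sm x).of_le (by simp)) hc _
    rw [ha.d_mul hw, integ_add (c (ha.d.mul hw) (Int54.hcs_dM hc).mul_right)
      (c ((ha.mul hw.d).smul _) (hc.mul_right.smul_left (f := fun _ => (-1 : ℝ) ^ 1))),
      integ_smul, h1, cl a ha hc] at h2
    linarith

theorem cok_core (hg : g.OK) (h : Tam g.F o) (hd : 0 < d) (hw : Qab60.Fo X.I 2 w)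
    (h0 : dM X.I w = 0) (dc : Dc g d (c2 g.F w)) (sd : ∀ x, hs g.F o x (c2 g.F w x) = c2 g.F w x)
    {R : ℝ} (H : ∀ η, Qab60.Fo X.I 2 η → HasCompactSupport η → dM X.I η = 0 →
      (∀ x ∈ g.cor R, η x = w x) → ∫ x, ⟪c2 g.F η x, st o x (c2 g.F η x)⟫_ℝ ∂g.F.μ ≤ 0) :
    c2 g.F w = 0 := by
  obtain ⟨C, C0, hC⟩ := exists_ct hg
  obtain ⟨V, V0, hV⟩ := exists_vol g
  obtain ⟨α, hα, e, K, hK⟩ := prim hg hd hw h0 dc
  obtain ⟨K', hK'⟩ := dc.dc []
  have cw := (dc.sm.continuous.norm.fun_pow 2)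
  have lim : Tendsto (fun T => V * (2 * ((2 * (C * |K|) + |K'|) * exp (-d * T)) ^ 2)) atTop (𝓝 0) := by
    simpa using ((((tendsto_exp_atBot.comp (tendsto_id.const_mul_atTop_of_neg
      (neg_neg_iff_pos.2 hd))).const_mul (2 * (C * |K|) + |K'|)).pow 2).const_mul 2).const_mul V
  refine funext fun x => norm_eq_zero.1 (pow_eq_zero_iff two_ne_zero |>.1
    ((zero_of_cor hg cw (fun x => sq_nonneg _) le_rfl fun δ hδ => ?_).1 x))
  filter_upwards [eventually_ge_atTop R, eventually_ge_atTop 1, lim.eventually (gt_mem_nhds hδ)]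
    with T hR h1 l
  obtain ⟨θ, k⟩ := hC T (by linarith)
  let η := w - dM X.I α + dM X.I (θ • α)
  have hη : Qab60.Fo X.I 2 η := (hw.sub hα.d).add (hα.fsmul k.sm).d
  have i1 : ∀ x ∈ g.cor T, η x = w x := fun x hx => by simp [η, k.d_in hx]
  have i2 : ∀ x ∉ g.cor T, ∃ s, T < g.ht s x ∧ dM X.I α x = w x := fun x hx =>
    let ⟨s, hs⟩ := not_forall.1 hx; ⟨s, not_le.1 hs, e s x (h1.trans_lt (not_le.1 hs))⟩
  have i3 : ∀ x ∉ g.cor T, η x = dM X.I (θ • α) x := fun x hx => by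
    simp [η, (i2 x hx).choose_spec.2]
  have i4 : ∀ x ∉ g.cor (T + 2), η x = 0 := fun x hx =>
    (i3 x fun e => hx (cor_mono (by linarith) e)).trans (k.d_out hx)
  have c := (sm_c2 (F := g.F) hη.sm).continuous
  have cG := c.inner (𝕜 := ℝ) (ct_st h c)
  have e1 := H η hη (HasCompactSupport.intro (hg.cpt _) i4) (by
    rw [(hw.sub hα.d).d_add (hα.fsmul k.sm).d, hw.d_sub hα.d, h0, hα.dd, (hα.fsmul k.sm).dd]; simp)
    fun x hx => i1 x (cor_mono hR hx)
  have q : ∀ {a b : X.M → Ext X.E} {x}, a x = b x → c2 g.F a x = c2 g.F b x := fun e =>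
    fm_ext fun s => congrArg (e2 · _ _) e
  rw [split (T := T) hg cG fun x hx => by simp [c2_of_zero (i4 x hx)],
    setIntegral_congr_fun (g := fun x => ‖c2 g.F w x‖ ^ 2) (ms_cor T) fun x hx => by
      simp only [q (i1 x hx)]
      rw [← sd, st_hs h.ok, real_inner_self_eq_norm_sq]] at e1
  have e2 := norm_setIntegral_le_of_norm_le_const (μ := g.F.μ) (s := sh g T)
    (C := 2 * ((2 * (C * |K|) + |K'|) * exp (-d * T)) ^ 2)
    (f := fun x => ⟪c2 g.F η x, st o x (c2 g.F η x)⟫_ℝ)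
    ((measure_mono sdiff_subset).trans_lt (hg.cpt _).measure_lt_top) fun x hx => by
      obtain ⟨s, hs, e⟩ := i2 x hx.2
      have m : exp (-d * g.ht s x) ≤ exp (-d * T) := exp_le_exp.2 (by nlinarith)
      have b : ‖c2 g.F η x‖ ≤ (2 * (C * |K|) + |K'|) * exp (-d * T) := by
        have b1 := (hK s x (by linarith)).trans (mul_le_mul (le_abs_self K) m (exp_pos _).le
          (abs_nonneg _))
        have b2 : ‖c2 g.F w x‖ ≤ _ := (hK' s x (by linarith)).trans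
          (mul_le_mul (le_abs_self K') m (exp_pos _).le (abs_nonneg _))
        have b3 := k.d_le hα x
        rw [q e] at b3
        rw [q (i3 x hx.2)]
        nlinarith [mul_le_mul_of_nonneg_left b1 C0]
      refine (norm_inner_le_norm _ _).trans ?_
      nlinarith [norm_st_le h.ok x (c2 g.F η x), norm_nonneg (c2 g.F η x),
        pow_le_pow_left₀ (norm_nonneg _) b 2]
  have e3 := mul_le_mul_of_nonneg_left (hV T (by linarith))
    (show 0 ≤ 2 * ((2 * (C * |K|) + |K'|) * exp (-d * T)) ^ 2 by positivity)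
  linarith [(abs_le.1 e2).1]

end gm

variable {κ lam ν : Type} [Fintype κ] [Fintype lam] [Fintype ν] [DecidableEq ν]

/-- closed forms of compact support -/
theorem cc_c2 {X : Mf 4} {nc : ℕ} {b : Bg X.I X.M κ lam ν nc} (hb : b.OK) {η : X.M → Ext X.E}
    (hη : Qab60.Fo X.I 2 η) (hc : HasCompactSupport η) (h0 : dM X.I η = 0) : Cc b (c2 b.F η) where
  sm := sm_c2 hη.sm
  cpt := hcs_c2 hc
  a2 x := Eq.trans (fm_ext fun s => by
    simp only [hs, sd, PiLp.add_apply, idx_apply, ← Finset.sum_add_distrib, ← add_smul, sdm,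
      Base.a2, ← hb.G.P]
    exact Finset.sum_congr rfl fun t _ => by congr 1; ring) (hs_add (o := b.B.o) η x)
  cl a ha _ := by
    have := (tam hb).integ_d (fo_g1 (F := b.F) (sm_vc ha)) hη h0 hc.mul_left
    rw [integ_mul (tam hb).ok (fo_g1 (sm_vc ha)).d.dg, ← d1_eq hb ha] at this
    exact (mul_eq_zero.1 this).resolve_left (by norm_num)

variable (κ lam ν) in
/-- **LEAF COK** -/
theorem cok : CokStmt κ lam ν := by
  intro X nc k e Z z η hZ hη neg f hf ⟨ε, ε0, hε⟩ cl h0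
  have hb := hZ.bg
  have sf := hf.1.choose_spec.1
  have sd : ∀ x, hs Z.bg.F Z.bg.B.o x (f x) = f x := fun x => p2_eq hb x ▸ hf.2 x
  have e1 : c2 z.gm.F (g2 Z.bg.F f) = f := funext fun x => c2_g2_hs (tam hb).ok (sd x)
  obtain ⟨R, -, hR⟩ := Rinv39.exists_R z.gm (isCompact_iUnion fun i => (hη i).cpt.isCompact)
  rw [← e1]
  refine cok_core (gm_ok z hZ) (tam hb) ε0 (fo_g2 sf) (closed (g := z.gm) (tam hb) (fo_g2 sf)
    fun α hα c => e1.symm ▸ wcl hb cl hα c) (e1.symm ▸ dc_of_fi (gm_ok z hZ) ε0 sf hε)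
    (e1.symm ▸ sd) (R := R) fun η' h1 h2 h3 h4 => neg _ (cc_c2 hb h1 h2 h3) fun i => ?_
  refine Eq.trans (integral_congr_ae (.of_forall fun x => ?_)) (h0 i)
  by_cases hx : x ∈ z.gm.cor R
  · rw [← e1]
    exact congrArg (⟪·, _⟫_ℝ) (fm_ext fun s => congrArg (e2 · _ _) (h4 x hx))
  · simp [image_eq_zero_of_notMem_tsupport fun e => hx (hR (mem_iUnion.2 ⟨i, e⟩))]

end Crest.Agent.X212.Clo39
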